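import Vale.Agent.P284.H894.MkCoc
import Vale.Agent.P272.KOD.CovEx

/-! # P284, block A5: the weights. -/

open scoped Manifold ContDiff Topology ComplexConjugate ComplexOrder
open Filter Set Metric

noncomputable section

namespace Vale.Agent.P284.H790

open Vale.Agent.P272.K Vale.Agent.P284.H248 Vale.Agent.P284.H894

/-- **A5** -/
theorem a5Stmt : A5Stmt := by
  intro n X _ _ _ _ _ L P Γ _ K hL
  obtain ⟨ψ, hψ, hpos⟩ := hL
  have hsub : ∀ a, closedBall (P.c a) (3 * P.r a) ⊆ ball (P.c a) (4 * P.r a) := P.closedBall_sub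
  have hsm : ∀ a, ∀ z ∈ ball (P.c a) (4 * P.r a),
      ContDiffAt ℝ ∞ (fun z => ψ (P.f a) ((P.e a).symm z)) z := by
    intro a z hz
    have := hψ.smooth (P.f a) (P.e a) ((P.e a).symm z) (P.at' hz) (P.frame' hz)
    rwa [(P.e a).right_inv (P.target hz)] at this
  have hp : ∀ a, ∀ z ∈ ball (P.c a) (4 * P.r a),
      (cHess (fun z => ψ (P.f a) ((P.e a).symm z)) z).PosDef := by
    intro a z hz
    have := hpos (P.f a) (P.e a) ((P.e a).symm z) (P.at' hz) (P.frame' hz)
    rwa [(P.e a).right_inv (P.target hz)] at this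
  have h1 : ∀ a : P.I, ∃ lam : ℝ, 0 < lam ∧ ∀ z ∈ closedBall (P.c a) (3 * P.r a), ∀ β : Cm n,
      lam * ∑ j, ‖β j‖ ^ 2 ≤
        (∑ j, ∑ k, cHess (fun z => ψ (P.f a) ((P.e a).symm z)) z j k * β j * conj (β k)).re :=
    fun a => Vale.Agent.P272.KOD.exists_lam (isCompact_closedBall _ _)
      (fun z hz => hsm a z (hsub a hz)) fun z hz => hp a z (hsub a hz)
  choose lam hlam hlam' using h1
  obtain ⟨a0, ha0⟩ := Finite.exists_min lam
  exact ⟨{
    φ := fun a z => ψ (P.f a) ((P.e a).symm z)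
    smooth := fun a z hz => hsm a z hz
    change := fun a b z hz => by
      have h := hψ.change (P.f a) (P.f b) ((P.e a).symm z) (P.frame' hz.1) (P.frame_right hz)
      show ψ (P.f a) ((P.e a).symm z) = ψ (P.f b) ((P.e b).symm (P.T a b z)) +
        Real.log (‖P.g a b z‖ ^ 2)
      rw [P.symm_T hz]
      exact h
    lam := lam a0
    lam_pos := hlam a0
    pos := fun a z hz β => (mul_le_mul_of_nonneg_right (ha0 a)
      (Finset.sum_nonneg fun j _ => by positivity)).trans (hlam' a z hz β) }⟩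

end Vale.Agent.P284.H790
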